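import Mathlib

set_option autoImplicit false

/-! Symmetric chain decomposition of a product of chains, and the theorem of de Bruijn,
Tengbergen and Kruyswijk: an antichain is at most as large as the middle level. -/

namespace Vale.Agent.P200.H391

open Finset

/-- a symmetric chain decomposition of `P`; the rank is the sum of the coordinates, the chain `t`
consists of the elements `x t i`, `lo t ≤ i ≤ s - lo t` -/
structure SCD {n : ℕ} (P : Set (Fin n → ℕ)) (s : ℕ) where
  ι : Type
  lo : ι → ℕ
  x : ι → ℕ → Fin n → ℕ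
  lo_le : ∀ t, 2 * lo t ≤ s
  mem : ∀ t i, lo t ≤ i → i + lo t ≤ s → x t i ∈ P
  rk : ∀ t i, lo t ≤ i → i + lo t ≤ s → ∑ k, x t i k = i
  mono : ∀ t i j, lo t ≤ i → i ≤ j → j + lo t ≤ s → x t i ≤ x t j
  ix : ∀ p ∈ P, ∃ t, lo t ≤ ∑ k, p k ∧ ∑ k, p k + lo t ≤ s ∧ x t (∑ k, p k) = p
  uniq : ∀ t t' i, lo t ≤ i → i + lo t ≤ s → lo t' ≤ i → i + lo t' ≤ s → x t i = x t' i → t = t'

/-- the box -/
def box {n : ℕ} (a : Fin n → ℕ) : Set (Fin n → ℕ) := {p | ∀ i, p i < a i}

theorem exists_SCD : ∀ (n : ℕ) (a : Fin n → ℕ), (∀ i, 1 ≤ a i) →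
    Nonempty (SCD (box a) (∑ i, (a i - 1)))
  | 0, a, _ => ⟨{
      ι := Unit
      lo := fun _ => 0
      x := fun _ _ => 0
      lo_le := fun _ => Nat.zero_le _
      mem := fun _ _ _ _ i => i.elim0
      rk := fun _ i _ h => by simp at h ⊢; exact h.symm
      mono := fun _ _ _ _ _ _ => le_rfl
      ix := fun p _ => ⟨(), by simp, by simp, by funext i; exact i.elim0⟩
      uniq := fun _ _ _ _ _ _ _ _ => rfl }⟩
  | n + 1, a, ha => by
    obtain ⟨C⟩ := exists_SCD n (fun i => a i.succ) fun i => ha _
    set s := ∑ i : Fin n, (a i.succ - 1) with hs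
    set b := a 0 with hb
    have hb1 : 1 ≤ b := ha 0
    have hsum : ∑ i, (a i - 1) = s + (b - 1) := by
      rw [Fin.sum_univ_succ, add_comm]
    rw [hsum]
    have hbox : ∀ (j : ℕ) (p : Fin n → ℕ), j < b → p ∈ box (fun i => a i.succ) →
        (Fin.cons j p : Fin (n + 1) → ℕ) ∈ box a := by
      intro j p hj hp i
      refine Fin.cases ?_ (fun i => ?_) i
      · exact hj
      · exact hp i
    have hcons : ∀ (j : ℕ) (p : Fin n → ℕ), ∑ k, (Fin.cons j p : Fin (n + 1) → ℕ) k = j + ∑ k, p k := by
      intro j p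
      rw [Fin.sum_univ_succ]
      simp
    refine ⟨{
      ι := {tu : C.ι × ℕ // tu.2 < b ∧ 2 * C.lo tu.1 + tu.2 ≤ s}
      lo := fun tu => C.lo tu.1.1 + tu.1.2
      x := fun tu i => if i + C.lo tu.1.1 ≤ s then Fin.cons tu.1.2 (C.x tu.1.1 (i - tu.1.2))
        else Fin.cons (i - (s - C.lo tu.1.1 - tu.1.2)) (C.x tu.1.1 (s - C.lo tu.1.1 - tu.1.2))
      lo_le := ?_
      mem := ?_
      rk := ?_
      mono := ?_
      ix := ?_
      uniq := ?_ }⟩
    · rintro ⟨⟨t, u⟩, hu1, hu2⟩
      simp only at hu1 hu2 ⊢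
      omega
    · rintro ⟨⟨t, u⟩, hu1, hu2⟩ i h1 h2
      simp only at hu1 hu2 h1 h2 ⊢
      split_ifs with h3
      · exact hbox _ _ hu1 (C.mem t _ (by omega) (by omega))
      · exact hbox _ _ (by omega) (C.mem t _ (by omega) (by omega))
    · rintro ⟨⟨t, u⟩, hu1, hu2⟩ i h1 h2
      simp only at hu1 hu2 h1 h2 ⊢
      split_ifs with h3
      · rw [hcons, C.rk t _ (by omega) (by omega)]; omega
      · rw [hcons, C.rk t _ (by omega) (by omega)]; omega
    · rintro ⟨⟨t, u⟩, hu1, hu2⟩ i j h1 h2 h3
      simp only at hu1 hu2 h1 h2 h3 ⊢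
      have key : ∀ (j j' : ℕ) (p p' : Fin n → ℕ), j ≤ j' → p ≤ p' →
          (Fin.cons j p : Fin (n + 1) → ℕ) ≤ Fin.cons j' p' := by
        intro j j' p p' hj hp i
        refine Fin.cases ?_ (fun i => ?_) i
        · exact hj
        · exact hp i
      split_ifs with h4 h5 h5
      · exact key _ _ _ _ le_rfl (C.mono t _ _ (by omega) (by omega) (by omega))
      · exact key _ _ _ _ (by omega) (C.mono t _ _ (by omega) (by omega) (by omega))
      · omega
      · exact key _ _ _ _ (by omega) le_rfl
    · intro p hp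
      obtain ⟨t, h1, h2, h3⟩ := C.ix (fun i => p i.succ) fun i => hp i.succ
      have hp0 : p 0 < b := hp 0
      set r := ∑ k : Fin n, p k.succ with hr
      have hpe : p = Fin.cons (p 0) (fun i => p i.succ) := by
        funext i
        refine Fin.cases ?_ (fun i => ?_) i
        · rfl
        · rfl
      have hpr : ∑ k, p k = p 0 + r := by rw [Fin.sum_univ_succ]
      by_cases hle : p 0 + r + C.lo t ≤ s
      · refine ⟨⟨(t, p 0), hp0, by simp only; omega⟩, ?_, ?_, ?_⟩
        · simp only; omega
        · simp only; omega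
        · simp only [hpr]
          rw [if_pos hle, Nat.add_sub_cancel_left, h3]
          exact hpe.symm
      · refine ⟨⟨(t, s - C.lo t - r), by simp only; omega, by simp only; omega⟩, ?_, ?_, ?_⟩
        · simp only; omega
        · simp only; omega
        · simp only [hpr]
          rw [if_neg hle]
          have e1 : s - C.lo t - (s - C.lo t - r) = r := by omega
          rw [e1, Nat.add_sub_cancel, h3]
          exact hpe.symm
    · rintro ⟨⟨t, u⟩, hu1, hu2⟩ ⟨⟨t', u'⟩, hu1', hu2'⟩ i h1 h2 h1' h2' heq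
      simp only at hu1 hu2 hu1' hu2' h1 h2 h1' h2' heq
      have h0 := congrFun heq 0
      have hS : ∀ k : Fin n, _ := fun k => congrFun heq k.succ
      split_ifs at h0 hS with h3 h4 h4
      · simp only [Fin.cons_zero, Fin.cons_succ] at h0 hS
        subst h0
        have := C.uniq t t' (i - u) (by omega) (by omega) (by omega) (by omega) (funext hS)
        subst this
        rfl
      · simp only [Fin.cons_zero, Fin.cons_succ] at h0 hS
        have e1 : i - u = s - C.lo t' - u' := by
          have a1 := C.rk t (i - u) (by omega) (by omega)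
          have a2 := C.rk t' (s - C.lo t' - u') (by omega) (by omega)
          rw [← a1, ← a2]
          exact Finset.sum_congr rfl fun k _ => hS k
        rw [e1] at hS
        have := C.uniq t t' (s - C.lo t' - u') (by omega) (by omega) (by omega) (by omega) (funext hS)
        subst this
        omega
      · simp only [Fin.cons_zero, Fin.cons_succ] at h0 hS
        have e1 : i - u' = s - C.lo t - u := by
          have a1 := C.rk t' (i - u') (by omega) (by omega)
          have a2 := C.rk t (s - C.lo t - u) (by omega) (by omega)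
          rw [← a1, ← a2]
          exact Finset.sum_congr rfl fun k _ => (hS k).symm
        rw [e1] at hS
        have := C.uniq t t' (s - C.lo t - u) (by omega) (by omega) (by omega) (by omega) (funext hS)
        subst this
        omega
      · simp only [Fin.cons_zero, Fin.cons_succ] at h0 hS
        have e1 : s - C.lo t - u = s - C.lo t' - u' := by omega
        rw [← e1] at hS
        have := C.uniq t t' (s - C.lo t - u) (by omega) (by omega) (by omega) (by omega) (funext hS)
        subst this
        have : u = u' := by omega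
        subst this
        rfl

theorem level_finite {n : ℕ} (a : Fin n → ℕ) (d : ℕ) : {p | p ∈ box a ∧ ∑ i, p i = d}.Finite :=
  (Set.Finite.pi fun i => Set.finite_lt_nat (a i)).subset fun _ hp i _ => hp.1 i

/-- the theorem of de Bruijn, Tengbergen and Kruyswijk -/
theorem antichain_le {n : ℕ} (a : Fin n → ℕ) (F : Set (Fin n → ℕ)) (hF : F ⊆ box a)
    (hanti : ∀ p ∈ F, ∀ q ∈ F, p ≤ q → p = q) :
    F.ncard ≤ {p | p ∈ box a ∧ ∑ i, p i = (∑ i, (a i - 1)) / 2}.ncard := by
  by_cases hemp : F = ∅
  · rw [hemp, Set.ncard_empty]; exact Nat.zero_le _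
  obtain ⟨p0, hp0⟩ := Set.nonempty_iff_ne_empty.2 hemp
  have ha : ∀ i, 1 ≤ a i := fun i => Nat.one_le_iff_ne_zero.2 (Nat.ne_zero_of_lt (hF hp0 i))
  obtain ⟨C⟩ := exists_SCD n a ha
  set s := ∑ i, (a i - 1) with hs
  haveI : Nonempty C.ι := ⟨(C.ix p0 (hF hp0)).choose⟩
  choose! T h1 h2 h3 using C.ix
  refine Set.ncard_le_ncard_of_injOn (fun p => C.x (T p) (s / 2)) ?_ ?_ (level_finite a _)
  · intro p hp
    have := C.lo_le (T p)
    exact ⟨C.mem _ _ (by omega) (by omega), C.rk _ _ (by omega) (by omega)⟩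
  · intro p hp q hq heq
    have l1 := C.lo_le (T p)
    have l2 := C.lo_le (T q)
    have hT : T p = T q := C.uniq _ _ _ (by omega) (by omega) (by omega) (by omega) heq
    have e1 := h3 p (hF hp)
    have e2 := h3 q (hF hq)
    rcases le_total (∑ k, p k) (∑ k, q k) with hle | hle
    · have := C.mono (T p) _ _ (h1 p (hF hp)) hle (by rw [hT]; exact h2 q (hF hq))
      rw [e1, hT, e2] at this
      exact hanti p hp q hq this
    · have := C.mono (T q) _ _ (h1 q (hF hq)) hle (by rw [← hT]; exact h2 p (hF hp))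
      rw [e2, ← hT, e1] at this
      exact (hanti q hq p hp this).symm

end Vale.Agent.P200.H391
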