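import Vale.Agent.P200.H391.Dim

set_option autoImplicit false
set_option linter.all false

/-! The socle and the Hilbert function in terms of quotients; bridges to Mathlib notions. -/

namespace Vale.Agent.P200.H391

open MvPolynomial Module Vale.Agent.P200F Vale.Agent.P200F.G Vale.Agent.P200F.B
  Vale.Agent.P200F.L Vale.Agent.P200.H710

universe u

variable {K : Type u} [Field K] {n c : ℕ}

/-- the Hilbert function as the dimension of `(S / I)_d` -/
theorem finrank_map_hom (I : Ideal (MvPolynomial (Fin n) K)) (d : ℕ) :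
    finrank K ((homogeneousSubmodule (Fin n) K d).map (Ideal.Quotient.mkₐ K I).toLinearMap) =
      hilb I d := by
  have h1 := ((qm I).domRestrict (homogeneousSubmodule (Fin n) K d)).finrank_range_add_finrank_ker
  rw [LinearMap.range_domRestrict] at h1
  have h2 : LinearMap.ker ((qm I).domRestrict (homogeneousSubmodule (Fin n) K d)) =
      (piece I d).comap (homogeneousSubmodule (Fin n) K d).subtype := by
    ext ⟨p, hp⟩
    rw [LinearMap.mem_ker, LinearMap.domRestrict_apply, qm_eq_zero, Submodule.mem_comap]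
    exact ⟨fun h => ⟨h, hp⟩, fun h => h.1⟩
  rw [h2, (Submodule.comapSubtypeEquivOfLe (piece_le I d)).finrank_eq] at h1
  have h3 := finrank_piece_add_hilb I d
  have h4 : (homogeneousSubmodule (Fin n) K d).map (Ideal.Quotient.mkₐ K I).toLinearMap =
    (homogeneousSubmodule (Fin n) K d).map (qm I) := rfl
  rw [h4]
  omega

/-- the dimension of the socle -/
theorem finrank_socle {I : Ideal (MvPolynomial (Fin n) K)} {D : ℕ}
    (hD : ∀ d, D ≤ d → ∀ g : MvPolynomial (Fin n) K, g.IsHomogeneous d → g ∈ I) :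
    finrank K (⨅ i : Fin n, LinearMap.ker (LinearMap.mulLeft K (Ideal.Quotient.mk I (X i))) :
      Submodule K (MvPolynomial (Fin n) K ⧸ I)) +
      finrank K (MvPolynomial (Fin n) K ⧸ Submodule.colon I (Set.range X)) =
      finrank K (MvPolynomial (Fin n) K ⧸ I) := by
  haveI := finite_quot hD
  set φ : (MvPolynomial (Fin n) K ⧸ I) →ₗ[K] MvPolynomial (Fin n) K ⧸ Submodule.colon I (Set.range X) :=
    (Ideal.Quotient.factorₐ K (le_colon I)).toLinearMap with hφ
  have h1 := φ.finrank_range_add_finrank_ker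
  have h2 : LinearMap.range φ = ⊤ :=
    LinearMap.range_eq_top.2 (Ideal.Quotient.factor_surjective (le_colon I))
  have h3 : LinearMap.ker φ =
      (⨅ i : Fin n, LinearMap.ker (LinearMap.mulLeft K (Ideal.Quotient.mk I (X i)))) := by
    ext x
    obtain ⟨v, rfl⟩ := Ideal.Quotient.mk_surjective x
    rw [LinearMap.mem_ker, Submodule.mem_iInf]
    have e1 : φ (Ideal.Quotient.mk I v) = Ideal.Quotient.mk (Submodule.colon I (Set.range X)) v := rfl
    rw [e1, Ideal.Quotient.eq_zero_iff_mem, mem_colon_X]
    refine forall_congr' fun i => ?_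
    rw [LinearMap.mem_ker, LinearMap.mulLeft_apply, ← map_mul, Ideal.Quotient.eq_zero_iff_mem]
  rw [h2, finrank_top, h3] at h1
  omega

theorem lexGT_iff (e e' : Fin n →₀ ℕ) :
    toLex (e : Fin n → ℕ) < toLex (e' : Fin n → ℕ) ↔ lexGT e' e := by
  constructor
  · rintro ⟨i, h1, h2⟩
    exact ⟨i, h2, fun j hj => (h1 j hj).symm⟩
  · rintro ⟨i, h1, h2⟩
    exact ⟨i, fun j hj => (h2 j hj).symm, h1⟩

end Vale.Agent.P200.H391
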