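import Vale.Agent.P200.H391.Ini

set_option autoImplicit false
set_option linter.all false

/-! The dimension of `S / I`, the counts for complete intersections, the lower bound. -/

namespace Vale.Agent.P200.H391

open MvPolynomial Module Vale.Agent.P200F Vale.Agent.P200F.G Vale.Agent.P200F.B
  Vale.Agent.P200F.L Vale.Agent.P200.H710

universe u

variable {K : Type u} [Field K] {n c : ℕ}

attribute [local instance] MvPolynomial.gradedAlgebra

/-- elements of order at least `d` -/
def ordSub (K : Type u) [Field K] (n d : ℕ) : Submodule K (MvPolynomial (Fin n) K) where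
  carrier := {v | Ord d v}
  add_mem' := fun ha hb => ha.add hb
  zero_mem' := fun e _ => map_zero _
  smul_mem' := fun r _ h => h.smul r

theorem mem_ordSub {d : ℕ} {v : MvPolynomial (Fin n) K} : v ∈ ordSub K n d ↔ Ord d v := Iff.rfl

/-- the projection to `S / I` as a `K`-linear map -/
noncomputable def qm (I : Ideal (MvPolynomial (Fin n) K)) :
    MvPolynomial (Fin n) K →ₗ[K] MvPolynomial (Fin n) K ⧸ I := (Ideal.Quotient.mkₐ K I).toLinearMap

theorem qm_eq_zero {I : Ideal (MvPolynomial (Fin n) K)} {v : MvPolynomial (Fin n) K} :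
    qm I v = 0 ↔ v ∈ I := Ideal.Quotient.eq_zero_iff_mem

theorem qm_surj (I : Ideal (MvPolynomial (Fin n) K)) : Function.Surjective (qm I) :=
  Ideal.Quotient.mk_surjective

theorem piece_ini (I : Ideal (MvPolynomial (Fin n) K)) (d : ℕ) : piece (ini I) d = lead I d := by
  ext p
  constructor
  · rintro ⟨h1, h2⟩
    exact (hom_mem_ini h2).1 h1
  · intro hp
    have hp' : p.IsHomogeneous d := by
      obtain ⟨u, -, -, h2⟩ := hp
      rw [← h2]; exact homogeneousComponent_isHomogeneous d u
    exact ⟨(hom_mem_ini hp').2 hp, hp'⟩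

theorem finite_quot {I : Ideal (MvPolynomial (Fin n) K)} {D : ℕ}
    (hD : ∀ d, D ≤ d → ∀ g : MvPolynomial (Fin n) K, g.IsHomogeneous d → g ∈ I) :
    Module.Finite K (MvPolynomial (Fin n) K ⧸ I) := by
  set W : Submodule K (MvPolynomial (Fin n) K) := ⨆ d : Fin D, homogeneousSubmodule (Fin n) K d with hW
  have : Module.Finite K W := by
    rw [hW]
    infer_instance
  refine Module.Finite.of_surjective ((qm I).domRestrict W) ?_
  intro x
  obtain ⟨v, rfl⟩ := qm_surj I x
  refine ⟨⟨∑ d : Fin D, homogeneousComponent d v, ?_⟩, ?_⟩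
  · refine Submodule.sum_mem _ fun d _ => ?_
    exact Submodule.mem_iSup_of_mem d (homogeneousComponent_isHomogeneous d v)
  · rw [LinearMap.domRestrict_apply, ← sub_eq_zero, ← map_sub, qm_eq_zero]
    refine mem_of_ord hD fun e he => ?_
    rw [map_sub, map_sum]
    have h1 : ∑ d : Fin D, homogeneousComponent e (homogeneousComponent d v) =
        homogeneousComponent e v := by
      rw [Finset.sum_eq_single (⟨e, he⟩ : Fin D)]
      · rw [comp_comp, if_pos rfl]
      · intro b _ hb
        rw [comp_comp, if_neg]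
        intro hbe
        exact hb (Fin.ext hbe.symm)
      · intro h; exact absurd (Finset.mem_univ _) h
    rw [h1, sub_self]

theorem finrank_step {I : Ideal (MvPolynomial (Fin n) K)}
    [Module.Finite K (MvPolynomial (Fin n) K ⧸ I)] (k : ℕ) :
    finrank K ((ordSub K n k).map (qm I)) =
      hilb (ini I) k + finrank K ((ordSub K n (k + 1)).map (qm I)) := by
  set U := (ordSub K n k).map (qm I) with hU
  set U' := (ordSub K n (k + 1)).map (qm I) with hU'
  have hle : U' ≤ U := by
    refine Submodule.map_mono fun v hv e he => hv e (by omega)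
  set χ : homogeneousSubmodule (Fin n) K k →ₗ[K] (MvPolynomial (Fin n) K ⧸ I) ⧸ U' :=
    (U'.mkQ ∘ₗ qm I).domRestrict _ with hχ
  have h1 := χ.finrank_range_add_finrank_ker
  have h2 : finrank K (LinearMap.ker χ) = finrank K (piece (ini I) k) := by
    have e1 : LinearMap.ker χ = (piece (ini I) k).comap (homogeneousSubmodule (Fin n) K k).subtype := by
      ext ⟨p, hp⟩
      have hp' : p.IsHomogeneous k := hp
      rw [LinearMap.mem_ker, Submodule.mem_comap, piece_ini]
      have e2 : χ ⟨p, hp⟩ = U'.mkQ (qm I p) := rfl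
      rw [e2, Submodule.mkQ_apply, Submodule.Quotient.mk_eq_zero, hU', Submodule.mem_map]
      constructor
      · rintro ⟨v, hv, hvp⟩
        refine ⟨p - v, ?_, (ord_of_hom hp').sub fun e he => hv e (by omega), ?_⟩
        · rw [← qm_eq_zero, map_sub, hvp, sub_self]
        · rw [map_sub, comp_self hp', hv k (by omega), sub_zero]; rfl
      · rintro ⟨u, hu, hu1, hu2⟩
        refine ⟨p - u, fun e he => ?_, ?_⟩
        · by_cases hek : e = k
          · rw [hek, map_sub, comp_self hp', hu2]; exact sub_self _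
          · exact ((ord_of_hom hp').sub hu1) e (by omega)
        · rw [map_sub, qm_eq_zero.2 hu, sub_zero]
    rw [e1]
    exact (Submodule.comapSubtypeEquivOfLe (piece_le (ini I) k)).finrank_eq
  have h3 : LinearMap.range χ = U.map U'.mkQ := by
    ext x
    constructor
    · rintro ⟨⟨p, hp⟩, rfl⟩
      exact ⟨qm I p, ⟨p, ord_of_hom hp, rfl⟩, rfl⟩
    · rintro ⟨_, ⟨v, hv, rfl⟩, rfl⟩
      refine ⟨⟨homogeneousComponent k v, homogeneousComponent_mem k v⟩, ?_⟩
      have e2 : χ ⟨homogeneousComponent k v, homogeneousComponent_mem k v⟩ =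
        U'.mkQ (qm I (homogeneousComponent k v)) := rfl
      rw [e2, ← sub_eq_zero, ← map_sub, ← map_sub, Submodule.mkQ_apply, Submodule.Quotient.mk_eq_zero]
      refine ⟨_, fun e he => ?_, rfl⟩
      by_cases hek : e = k
      · rw [hek, map_sub, comp_self (homogeneousComponent_isHomogeneous k v), sub_self]
      · rw [map_sub, hv e (by omega), comp_comp, if_neg hek, sub_zero]
  have h4 : finrank K (U.map U'.mkQ) + finrank K U' = finrank K U := by
    have e3 := (U'.mkQ.domRestrict U).finrank_range_add_finrank_ker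
    have e4 : LinearMap.range (U'.mkQ.domRestrict U) = U.map U'.mkQ := by
      rw [LinearMap.range_domRestrict]
    have e5 : finrank K (LinearMap.ker (U'.mkQ.domRestrict U)) = finrank K U' := by
      have e6 : LinearMap.ker (U'.mkQ.domRestrict U) = U'.comap U.subtype := by
        rw [LinearMap.ker_domRestrict, Submodule.ker_mkQ]
      rw [e6]
      exact (Submodule.comapSubtypeEquivOfLe hle).finrank_eq
    rw [e4, e5] at e3
    exact e3
  have h5 := finrank_piece_add_hilb (ini I) k
  rw [h3, h2] at h1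
  omega

/-- the dimension of `S / I` -/
theorem finrank_quot {I : Ideal (MvPolynomial (Fin n) K)} {D : ℕ}
    (hD : ∀ d, D ≤ d → ∀ g : MvPolynomial (Fin n) K, g.IsHomogeneous d → g ∈ I) :
    finrank K (MvPolynomial (Fin n) K ⧸ I) = ∑ d ∈ Finset.range D, hilb (ini I) d := by
  haveI := finite_quot hD
  have key : ∀ k, finrank K (MvPolynomial (Fin n) K ⧸ I) =
      ∑ d ∈ Finset.range k, hilb (ini I) d + finrank K ((ordSub K n k).map (qm I)) := by
    intro k
    induction k with
    | zero =>
      have h1 : (ordSub K n 0).map (qm I) = ⊤ := by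
        rw [eq_top_iff]
        rintro x -
        obtain ⟨v, rfl⟩ := qm_surj I x
        exact ⟨v, fun e he => by omega, rfl⟩
      rw [h1, finrank_top]
      simp
    | succ k ih =>
      rw [ih, Finset.sum_range_succ, finrank_step k, add_assoc]
  have h2 : (ordSub K n D).map (qm I) = ⊥ := by
    rw [eq_bot_iff]
    rintro _ ⟨v, hv, rfl⟩
    rw [Submodule.mem_bot, qm_eq_zero]
    exact mem_of_ord hD hv
  rw [key D, h2, finrank_bot, add_zero]

/-! antichains of exponents -/

theorem outside_eq (a : Fin c → ℕ) (d : ℕ) :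
    (outside le_rfl a d).ncard = {p : Fin c → ℕ | p ∈ box a ∧ ∑ i, p i = d}.ncard := by
  rw [← Set.ncard_image_of_injective (outside le_rfl a d) (f := fun e : Fin c →₀ ℕ => (e : Fin c → ℕ))
    DFunLike.coe_injective]
  congr 1
  ext p
  constructor
  · rintro ⟨e, ⟨h1, h2⟩, rfl⟩
    exact ⟨fun i => h1 i, h2⟩
  · rintro ⟨h1, h2⟩
    exact ⟨Finsupp.equivFunOnFinite.symm p, ⟨fun i => h1 i, h2⟩, rfl⟩

theorem anti_count (a : Fin c → ℕ) (F : Set (Fin c →₀ ℕ))
    (hF : ∀ m ∈ F, ∀ i, m (Fin.castLE le_rfl i) < a i)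
    (hanti : ∀ p ∈ F, ∀ q ∈ F, p ≤ q → p = q) :
    F.Finite ∧ F.ncard ≤ (outside le_rfl a ((∑ i, (a i - 1)) / 2)).ncard := by
  have hinj : Function.Injective (fun e : Fin c →₀ ℕ => (e : Fin c → ℕ)) := DFunLike.coe_injective
  constructor
  · refine Set.Finite.of_finite_image (f := fun e : Fin c →₀ ℕ => (e : Fin c → ℕ)) ?_ hinj.injOn
    refine (Set.Finite.pi fun i => Set.finite_lt_nat (a i)).subset ?_
    rintro _ ⟨m, hm, rfl⟩ i _
    exact hF m hm i
  · rw [outside_eq, ← Set.ncard_image_of_injective F hinj]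
    refine antichain_le a _ ?_ ?_
    · rintro _ ⟨m, hm, rfl⟩ i
      exact hF m hm i
    · rintro _ ⟨p, hp, rfl⟩ _ ⟨q, hq, rfl⟩ hpq
      have : p = q := hanti p hp q hq hpq
      rw [this]

theorem sum_level {F : Set (Fin n →₀ ℕ)} (hF : F.Finite) (D : ℕ) :
    ∑ d ∈ Finset.range D, {m | m ∈ F ∧ ∑ i, m i = d}.ncard ≤ F.ncard := by
  have key : ∀ D, ∑ d ∈ Finset.range D, {m | m ∈ F ∧ ∑ i, m i = d}.ncard ≤
      {m | m ∈ F ∧ ∑ i, m i < D}.ncard := by
    intro D
    induction D with
    | zero => simp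
    | succ D ih =>
      rw [Finset.sum_range_succ]
      refine (Nat.add_le_add_right ih _).trans ?_
      have d1 : Disjoint {m | m ∈ F ∧ ∑ i, m i < D} {m | m ∈ F ∧ ∑ i, m i = D} := by
        rw [Set.disjoint_left]
        rintro m ⟨_, h1⟩ ⟨_, h2⟩
        omega
      rw [← Set.ncard_union_eq d1 (hF.subset fun m hm => hm.1) (hF.subset fun m hm => hm.1)]
      refine Set.ncard_le_ncard ?_ (hF.subset fun m hm => hm.1)
      rintro m (⟨h1, h2⟩ | ⟨h1, h2⟩)
      · exact ⟨h1, by omega⟩
      · exact ⟨h1, by omega⟩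
  exact (key D).trans (Set.ncard_le_ncard (fun m hm => hm.1) hF)

section main

variable (K) (a : Fin c → ℕ)
    (ha : Monotone a) (h2 : ∀ i, 2 ≤ a i) (f : Fin c → MvPolynomial (Fin c) K)
    (hf : ∀ i, (f i).IsHomogeneous (a i)) (hreg : IsRegularSeq f)

include hf hreg in
theorem hilb_f (d : ℕ) : hilb (Ideal.span (Set.range f)) d = (outside le_rfl a d).ncard :=
  hilb_span_regular le_rfl a f hf hreg d

include hf hreg in
theorem hilb_f_le (d : ℕ) : hilb (Ideal.span (Set.range f)) d ≤
    hilb (Ideal.span (Set.range f)) ((∑ i, (a i - 1)) / 2) := by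
  rw [hilb_f K a f hf hreg, hilb_f K a f hf hreg]
  refine (anti_count a (outside le_rfl a d) (fun m hm => hm.1) ?_).2
  intro p hp q hq hpq
  have h1 : ∑ i, p i = ∑ i, q i := by rw [hp.2, hq.2]
  ext i
  exact (Finset.sum_eq_sum_iff_of_le fun i _ => hpq i).1 h1 i (Finset.mem_univ i)

include h2 hf hreg in
theorem f_big (d : ℕ) (hd : ∑ i, (a i - 1) + 1 ≤ d) (g : MvPolynomial (Fin c) K)
    (hg : g.IsHomogeneous d) : g ∈ Ideal.span (Set.range f) := by
  have h1 : hilb (Ideal.span (Set.range f)) d = 0 := by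
    rw [hilb_f K a f hf hreg]
    have : outside le_rfl a d = ∅ := by
      rw [Set.eq_empty_iff_forall_notMem]
      rintro m ⟨h3, h4⟩
      have h5 : ∑ i, m i ≤ ∑ i, (a i - 1) := Finset.sum_le_sum fun i _ => by
        have h6 : m i < a i := h3 i
        omega
      omega
    rw [this, Set.ncard_empty]
  exact hilb_eq_zero_iff.1 h1 g hg

include ha h2 hf hreg in
/-- every ideal is generated by few elements -/
theorem few_generators (I : Ideal (MvPolynomial (Fin c) K)) (hfI : ∀ i, f i ∈ I) :
    ∃ G : Finset (MvPolynomial (Fin c) K),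
      G.card ≤ hilb (Ideal.span (Set.range f)) ((∑ i, (a i - 1)) / 2) ∧
      I = Ideal.span (Set.range f ∪ (G : Set (MvPolynomial (Fin c) K))) := by
  have hFI : Ideal.span (Set.range f) ≤ I := by
    rw [Ideal.span_le]; rintro _ ⟨i, rfl⟩; exact hfI i
  have hF := homIdeal_f a f hf
  obtain ⟨G, hG1, hG2⟩ := exists_generators hF (D := ∑ i, (a i - 1) + 1)
    (fun d hd g hg => f_big K a h2 f hf hreg d hd g hg) hFI
  refine ⟨G, ?_, ?_⟩
  · refine hG1.trans ?_
    have hfi : ∀ i, f i ∈ ini I := fun i => hom_le_ini hF hFI (Ideal.subset_span ⟨i, rfl⟩)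
    obtain ⟨N, hN, hc⟩ := exists_NJ' K le_rfl a ha h2 f hf hreg (ini I) (homIdeal_ini I) hfi
    obtain ⟨g1, g2⟩ := anti_count a (gens le_rfl a N) (fun m hm => hm.1)
      fun p hp q hq hpq => gens_anti le_rfl a hN hp hq hpq
    rw [hilb_f K a f hf hreg]
    refine le_trans ?_ ((sum_level g1 (∑ i, (a i - 1) + 1)).trans g2)
    refine Finset.sum_le_sum fun d _ => ?_
    have := gen_count K le_rfl a ha h2 f hf hreg (ini I) (homIdeal_ini I) hfi hN hc d
    omega
  · rw [Ideal.span_union]
    exact hG2.symm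

include ha h2 hf hreg in
/-- small socles -/
theorem small_socle (I : Ideal (MvPolynomial (Fin c) K)) (hfI : ∀ i, f i ∈ I) :
    finrank K (MvPolynomial (Fin c) K ⧸ I) ≤
      finrank K (MvPolynomial (Fin c) K ⧸ Submodule.colon I (Set.range X)) +
        hilb (Ideal.span (Set.range f)) ((∑ i, (a i - 1)) / 2) := by
  have hFI : Ideal.span (Set.range f) ≤ I := by
    rw [Ideal.span_le]; rintro _ ⟨i, rfl⟩; exact hfI i
  have hF := homIdeal_f a f hf
  have hD : ∀ d, ∑ i, (a i - 1) + 1 ≤ d → ∀ g : MvPolynomial (Fin c) K, g.IsHomogeneous d → g ∈ I :=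
    fun d hd g hg => hFI (f_big K a h2 f hf hreg d hd g hg)
  rw [finrank_quot hD, finrank_quot fun d hd g hg => le_colon I (hD d hd g hg)]
  have hfi : ∀ i, f i ∈ ini I := fun i => hom_le_ini hF hFI (Ideal.subset_span ⟨i, rfl⟩)
  obtain ⟨N, hN, hc⟩ := exists_NJ' K le_rfl a ha h2 f hf hreg (ini I) (homIdeal_ini I) hfi
  obtain ⟨g1, g2⟩ := anti_count a (socl N) (fun m hm => hN.out m hm.1)
    fun p hp q hq hpq => socl_anti le_rfl a hN hp hq hpq
  rw [hilb_f K a f hf hreg]
  refine le_trans ?_ (Nat.add_le_add_left ((sum_level g1 (∑ i, (a i - 1) + 1)).trans g2) _)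
  rw [← Finset.sum_add_distrib]
  refine Finset.sum_le_sum fun d _ => ?_
  have h3 := soc_count K le_rfl a ha h2 f hf hreg (ini I) (homIdeal_ini I) hfi hN hc d
  have h4 : hilb (Submodule.colon (ini I) (Set.range X)) d ≤
      hilb (ini (Submodule.colon I (Set.range X))) d :=
    hilb_le_of fun g _ hg => ini_colon I hg
  omega

end main

theorem mem_mx_pow {k : ℕ} {p : MvPolynomial (Fin n) K} : p ∈ mx K n ^ k ↔ Ord k p := by
  have h1 := mem_pow_idealOfVars_iff' (σ := Fin n) (R := K) k p
  rw [show mx K n = idealOfVars (Fin n) K from rfl, h1]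
  constructor
  · intro h e he
    apply homogeneousComponent_eq_zero'
    intro m hm hme
    exact (mem_support_iff.1 hm) (h m (by omega))
  · intro h m hm
    have := congrArg (coeff m) (h m.degree hm)
    rwa [coeff_homogeneousComponent, if_pos rfl, coeff_zero] at this

/-- the power of the maximal ideal needs many generators -/
theorem many_generators {F : Ideal (MvPolynomial (Fin n) K)} (hF : HomIdeal F) (k : ℕ)
    (G : Finset (MvPolynomial (Fin n) K))
    (hG : F ⊔ mx K n ^ k = F ⊔ Ideal.span (G : Set (MvPolynomial (Fin n) K))) :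
    hilb F k ≤ G.card := by
  classical
  set W : Submodule K (MvPolynomial (Fin n) K) :=
    piece F k ⊔ Submodule.span K (G.image fun g => homogeneousComponent k g :
      Finset (MvPolynomial (Fin n) K)) with hW
  have hlow : ∀ v ∈ F ⊔ mx K n ^ k, ∀ e < k, homogeneousComponent e v ∈ F := by
    intro v hv e he
    obtain ⟨y, hy, z, hz, rfl⟩ := Submodule.mem_sup.1 hv
    rw [map_add, mem_mx_pow.1 hz e he, add_zero]
    exact hF y hy e
  have hGm : ∀ g ∈ G, g ∈ F ⊔ mx K n ^ k := by
    intro g hg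
    rw [hG]
    exact Ideal.mem_sup_right (Ideal.subset_span hg)
  have h1 : ∀ v ∈ F ⊔ mx K n ^ k, homogeneousComponent k v ∈ W := by
    intro v hv
    rw [hG] at hv
    obtain ⟨y, hy, z, hz, rfl⟩ := Submodule.mem_sup.1 hv
    rw [map_add]
    refine W.add_mem (Submodule.mem_sup_left ⟨hF y hy k, homogeneousComponent_isHomogeneous k y⟩) ?_
    have key : ∀ r : MvPolynomial (Fin n) K, ∀ g ∈ F ⊔ mx K n ^ k, homogeneousComponent k g ∈ W →
        homogeneousComponent k (r * g) ∈ W := by
      intro r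
      induction r using MvPolynomial.induction_on with
      | C a =>
        intro g _ hg
        rw [homogeneousComponent_C_mul, ← smul_eq_C_mul]
        exact W.smul_mem _ hg
      | add p q hp hq =>
        intro g hg hgW
        rw [add_mul, map_add]
        exact W.add_mem (hp g hg hgW) (hq g hg hgW)
      | mul_X p i hp =>
        intro g hg hgW
        rw [mul_assoc]
        refine hp _ (Ideal.mul_mem_left _ _ hg) ?_
        refine Submodule.mem_sup_left ⟨?_, homogeneousComponent_isHomogeneous k _⟩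
        cases k with
        | zero =>
          rw [comp_mul_of_lt (isHomogeneous_X K i) g (by omega)]
          exact F.zero_mem
        | succ k =>
          rw [comp_mul_add (isHomogeneous_X K i)]
          exact F.mul_mem_left _ (hlow g hg k (by omega))
    refine Submodule.span_induction
      (p := fun z _ => z ∈ F ⊔ mx K n ^ k ∧ homogeneousComponent k z ∈ W) ?_ ?_ ?_ ?_ hz |>.2
    · intro g hg
      refine ⟨hGm g hg, Submodule.mem_sup_right (Submodule.subset_span ?_)⟩
      rw [Finset.mem_coe, Finset.mem_image]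
      exact ⟨g, hg, rfl⟩
    · rw [map_zero]
      exact ⟨Ideal.zero_mem _, W.zero_mem⟩
    · intro x y _ _ hx hy
      rw [map_add]
      exact ⟨Ideal.add_mem _ hx.1 hy.1, W.add_mem hx.2 hy.2⟩
    · intro r x _ hx
      rw [smul_eq_mul]
      exact ⟨Ideal.mul_mem_left _ _ hx.1, key r x hx.1 hx.2⟩
  have h2 : homogeneousSubmodule (Fin n) K k ≤ W := by
    intro p hp
    have hp' : p.IsHomogeneous k := hp
    have := h1 p (Ideal.mem_sup_right (mem_mx_pow.2 (ord_of_hom hp')))
    rwa [comp_self hp'] at this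
  have h3 : finrank K W ≤ finrank K (piece F k) + G.card := by
    refine (Submodule.finrank_add_le_finrank_add_finrank _ _).trans ?_
    refine Nat.add_le_add_left ?_ _
    refine (finrank_span_finset_le_card _).trans Finset.card_image_le
  have h4 := Submodule.finrank_mono h2
  have h5 := finrank_piece_add_hilb F k
  omega

theorem ini_eq {I : Ideal (MvPolynomial (Fin n) K)} (hI : HomIdeal I) : ini I = I := by
  refine le_antisymm ?_ (hom_le_ini hI le_rfl)
  intro g hg
  rw [← sum_homogeneousComponent g]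
  refine I.sum_mem fun d _ => ?_
  obtain ⟨u, hu, -, h2⟩ := hg d
  rw [← h2]
  exact hI u hu d

theorem homIdeal_sup_pow {F : Ideal (MvPolynomial (Fin n) K)} (hF : HomIdeal F) (k : ℕ) :
    HomIdeal (F ⊔ mx K n ^ k) := by
  refine homIdeal_sup hF ?_
  intro g hg d
  rw [mem_mx_pow] at hg ⊢
  intro e he
  rw [comp_comp]
  split_ifs with hed
  · rw [← hed]; exact hg e he
  · rfl

theorem finrank_quot_pow {F : Ideal (MvPolynomial (Fin n) K)} (hF : HomIdeal F) (k : ℕ) :
    finrank K (MvPolynomial (Fin n) K ⧸ F ⊔ mx K n ^ k) = ∑ d ∈ Finset.range k, hilb F d := by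
  have hD : ∀ d, k ≤ d → ∀ g : MvPolynomial (Fin n) K, g.IsHomogeneous d → g ∈ F ⊔ mx K n ^ k := by
    intro d hd g hg
    exact Ideal.mem_sup_right (mem_mx_pow.2 fun e he => ord_of_hom hg e (by omega))
  rw [finrank_quot hD, ini_eq (homIdeal_sup_pow hF k)]
  refine Finset.sum_congr rfl fun d hd => ?_
  rw [Finset.mem_range] at hd
  apply hilb_congr
  intro g hg
  constructor
  · intro h
    obtain ⟨y, hy, z, hz, rfl⟩ := Submodule.mem_sup.1 h
    have h1 : homogeneousComponent d (y + z) = y + z := comp_self hg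
    rw [← h1, map_add, mem_mx_pow.1 hz d hd, add_zero]
    exact hF y hy d
  · intro h
    exact Ideal.mem_sup_left h

/-- a quotient with a large socle -/
theorem large_socle {F : Ideal (MvPolynomial (Fin n) K)} (hF : HomIdeal F) (k : ℕ) :
    finrank K (MvPolynomial (Fin n) K ⧸ Submodule.colon (F ⊔ mx K n ^ (k + 1)) (Set.range X)) +
      hilb F k ≤ finrank K (MvPolynomial (Fin n) K ⧸ F ⊔ mx K n ^ (k + 1)) := by
  rw [finrank_quot_pow hF (k + 1), Finset.sum_range_succ, ← finrank_quot_pow hF k]
  apply Nat.add_le_add_right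
  have hle : F ⊔ mx K n ^ k ≤ Submodule.colon (F ⊔ mx K n ^ (k + 1)) (Set.range X) := by
    intro g hg
    rw [mem_colon_X]
    intro i
    obtain ⟨y, hy, z, hz, rfl⟩ := Submodule.mem_sup.1 hg
    rw [mul_add]
    refine Ideal.add_mem _ (Ideal.mem_sup_left (F.mul_mem_left _ hy)) (Ideal.mem_sup_right ?_)
    rw [mem_mx_pow] at hz ⊢
    exact ord_X_mul hz i
  haveI : Module.Finite K (MvPolynomial (Fin n) K ⧸ F ⊔ mx K n ^ k) :=
    finite_quot (D := k) fun d hd g hg =>
      Ideal.mem_sup_right (mem_mx_pow.2 fun e he => ord_of_hom hg e (by omega))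
  exact LinearMap.finrank_le_finrank_of_surjective
    (f := (Ideal.Quotient.factorₐ K hle).toLinearMap) (Ideal.Quotient.factor_surjective hle)

end Vale.Agent.P200.H391
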