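import Vale.Agent.P200.H391.Rel

set_option autoImplicit false
set_option linter.all false

/-! The ideal of the forms of least degree of an ideal; generators of an arbitrary ideal. -/

namespace Vale.Agent.P200.H391

open MvPolynomial Module Vale.Agent.P200F Vale.Agent.P200F.G Vale.Agent.P200F.B
  Vale.Agent.P200F.L Vale.Agent.P200.H710

universe u

variable {K : Type u} [Field K] {n c : ℕ}

attribute [local instance] MvPolynomial.gradedAlgebra

theorem comp_comp (g : MvPolynomial (Fin n) K) (e d : ℕ) :
    homogeneousComponent e (homogeneousComponent d g) =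
      if e = d then homogeneousComponent d g else 0 :=
  homogeneousComponent_of_mem (homogeneousComponent_mem d g)

/-- `v` has order at least `d` -/
def Ord (d : ℕ) (v : MvPolynomial (Fin n) K) : Prop := ∀ e < d, homogeneousComponent e v = 0

theorem Ord.add {d : ℕ} {u v : MvPolynomial (Fin n) K} (hu : Ord d u) (hv : Ord d v) : Ord d (u + v) :=
  fun e he => by rw [map_add, hu e he, hv e he, add_zero]

theorem Ord.sub {d : ℕ} {u v : MvPolynomial (Fin n) K} (hu : Ord d u) (hv : Ord d v) : Ord d (u - v) :=
  fun e he => by rw [map_sub, hu e he, hv e he, sub_zero]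

theorem Ord.smul {d : ℕ} {u : MvPolynomial (Fin n) K} (hu : Ord d u) (r : K) : Ord d (r • u) :=
  fun e he => by rw [map_smul, hu e he, smul_zero]

theorem ord_comp (d : ℕ) (g : MvPolynomial (Fin n) K) : Ord d (homogeneousComponent d g) :=
  fun e he => by rw [comp_comp, if_neg he.ne]

theorem ord_of_hom {d : ℕ} {g : MvPolynomial (Fin n) K} (hg : g.IsHomogeneous d) : Ord d g := by
  have := ord_comp d g
  rwa [comp_self hg] at this

theorem ord_X_mul {d : ℕ} {u : MvPolynomial (Fin n) K} (hu : Ord d u) (i : Fin n) :
    Ord (d + 1) (X i * u) := by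
  intro e he
  cases e with
  | zero => exact comp_mul_of_lt (isHomogeneous_X K i) u (by omega)
  | succ e => rw [comp_mul_add (isHomogeneous_X K i), hu e (by omega), mul_zero]

/-- the forms of degree `d` which are the least form of an element of `I` -/
def lead (I : Ideal (MvPolynomial (Fin n) K)) (d : ℕ) : Submodule K (MvPolynomial (Fin n) K) where
  carrier := {p | ∃ u ∈ I, Ord d u ∧ homogeneousComponent d u = p}
  add_mem' := by
    rintro _ _ ⟨u, hu, hu1, rfl⟩ ⟨v, hv, hv1, rfl⟩
    exact ⟨u + v, I.add_mem hu hv, hu1.add hv1, map_add _ _ _⟩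
  zero_mem' := ⟨0, I.zero_mem, fun e _ => map_zero _, map_zero _⟩
  smul_mem' := by
    rintro r _ ⟨u, hu, hu1, rfl⟩
    refine ⟨r • u, ?_, hu1.smul r, map_smul _ _ _⟩
    rw [smul_eq_C_mul]
    exact I.mul_mem_left _ hu

theorem mem_lead {I : Ideal (MvPolynomial (Fin n) K)} {d : ℕ} {p : MvPolynomial (Fin n) K} :
    p ∈ lead I d ↔ ∃ u ∈ I, Ord d u ∧ homogeneousComponent d u = p := Iff.rfl

/-- the ideal of the least forms -/
def ini (I : Ideal (MvPolynomial (Fin n) K)) : Ideal (MvPolynomial (Fin n) K) where
  carrier := {g | ∀ d, homogeneousComponent d g ∈ lead I d}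
  add_mem' := by
    intro a b ha hb d
    rw [map_add]
    exact Submodule.add_mem _ (ha d) (hb d)
  zero_mem' := by
    intro d
    rw [map_zero]
    exact Submodule.zero_mem _
  smul_mem' := by
    intro r g hg
    have hg' : ∀ d, homogeneousComponent d g ∈ lead I d := hg
    rw [smul_eq_mul]
    revert hg'
    clear hg
    induction r using MvPolynomial.induction_on generalizing g with
    | C a =>
      intro hg d
      rw [homogeneousComponent_C_mul, ← smul_eq_C_mul]
      exact Submodule.smul_mem _ _ (hg d)
    | add p q hp hq =>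
      intro hg d
      rw [add_mul, map_add]
      exact Submodule.add_mem _ (hp hg d) (hq hg d)
    | mul_X p i hp =>
      intro hg
      rw [mul_assoc]
      refine hp fun d => ?_
      cases d with
      | zero =>
        rw [comp_mul_of_lt (isHomogeneous_X K i) g (by omega)]
        exact Submodule.zero_mem _
      | succ d =>
        rw [comp_mul_add (isHomogeneous_X K i)]
        obtain ⟨u, hu, hu1, hu2⟩ := hg d
        refine ⟨X i * u, I.mul_mem_left _ hu, ord_X_mul hu1 i, ?_⟩
        rw [comp_mul_add (isHomogeneous_X K i), hu2]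

theorem mem_ini {I : Ideal (MvPolynomial (Fin n) K)} {g : MvPolynomial (Fin n) K} :
    g ∈ ini I ↔ ∀ d, homogeneousComponent d g ∈ lead I d := Iff.rfl

theorem hom_mem_ini {I : Ideal (MvPolynomial (Fin n) K)} {g : MvPolynomial (Fin n) K} {d : ℕ}
    (hg : g.IsHomogeneous d) : g ∈ ini I ↔ g ∈ lead I d := by
  rw [mem_ini]
  constructor
  · intro h
    have := h d
    rwa [comp_self hg] at this
  · intro h e
    have := homogeneousComponent_of_mem (m := e) (n := d) (p := g) hg
    rw [this]
    split_ifs with he
    · rw [he]; exact h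
    · exact Submodule.zero_mem _

theorem homIdeal_ini (I : Ideal (MvPolynomial (Fin n) K)) : HomIdeal (ini I) := by
  intro g hg d
  rw [hom_mem_ini (homogeneousComponent_isHomogeneous d g)]
  exact hg d

theorem ini_mono {I J : Ideal (MvPolynomial (Fin n) K)} (h : I ≤ J) : ini I ≤ ini J := by
  intro g hg d
  obtain ⟨u, hu, h1, h2⟩ := hg d
  exact ⟨u, h hu, h1, h2⟩

theorem hom_le_ini {F I : Ideal (MvPolynomial (Fin n) K)} (hF : HomIdeal F) (h : F ≤ I) : F ≤ ini I := by
  intro g hg d
  exact ⟨homogeneousComponent d g, h (hF g hg d), ord_comp d g, comp_self (homogeneousComponent_isHomogeneous d g)⟩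

theorem ini_colon (I : Ideal (MvPolynomial (Fin n) K)) :
    ini (Submodule.colon I (Set.range X)) ≤ Submodule.colon (ini I) (Set.range X) := by
  intro g hg
  rw [mem_colon_X]
  intro i e
  cases e with
  | zero =>
    rw [comp_mul_of_lt (isHomogeneous_X K i) g (by omega)]
    exact Submodule.zero_mem _
  | succ e =>
    rw [comp_mul_add (isHomogeneous_X K i)]
    obtain ⟨u, hu, h1, h2⟩ := hg e
    rw [mem_colon_X] at hu
    refine ⟨X i * u, hu i, ord_X_mul h1 i, ?_⟩
    rw [comp_mul_add (isHomogeneous_X K i), h2]

/-- an element of large order belongs to `F` -/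
theorem mem_of_ord {F : Ideal (MvPolynomial (Fin n) K)} {D : ℕ}
    (hD : ∀ d, D ≤ d → ∀ g : MvPolynomial (Fin n) K, g.IsHomogeneous d → g ∈ F)
    {v : MvPolynomial (Fin n) K} (hv : Ord D v) : v ∈ F := by
  rw [← sum_homogeneousComponent v]
  refine F.sum_mem fun d _ => ?_
  by_cases hd : d < D
  · rw [hv d hd]; exact F.zero_mem
  · exact hD d (by omega) _ (homogeneousComponent_isHomogeneous d v)

/-- ideals with the same least forms are equal -/
theorem eq_of_ini {F B I : Ideal (MvPolynomial (Fin n) K)} {D : ℕ}
    (hD : ∀ d, D ≤ d → ∀ g : MvPolynomial (Fin n) K, g.IsHomogeneous d → g ∈ F)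
    (hFB : F ≤ B) (hBI : B ≤ I) (h : ∀ d, lead I d ≤ lead B d) : B = I := by
  refine le_antisymm hBI ?_
  have key : ∀ k, ∀ v ∈ I, Ord (D - k) v → v ∈ B := by
    intro k
    induction k with
    | zero => intro v _ hv; exact hFB (mem_of_ord hD hv)
    | succ k ih =>
      intro v hv hord
      obtain ⟨w, hw, hw1, hw2⟩ := h (D - (k + 1)) ⟨v, hv, hord, rfl⟩
      have h1 : v - w ∈ B := by
        refine ih (v - w) (I.sub_mem hv (hBI hw)) fun e he => ?_
        by_cases he' : e < D - (k + 1)
        · exact (hord.sub hw1) e he'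
        · have : e = D - (k + 1) := by omega
          rw [this, map_sub, hw2, sub_self]
      have := B.add_mem h1 hw
      rwa [sub_add_cancel] at this
  intro v hv
  exact key D v hv (fun e he => by omega)

/-- generators of a subspace modulo a smaller one -/
theorem exists_gens {V : Type*} [AddCommGroup V] [Module K V] (U W : Submodule K V) (hUW : U ≤ W)
    [Module.Finite K W] : ∃ G : Finset V, (∀ g ∈ G, g ∈ W) ∧ G.card ≤ finrank K W - finrank K U ∧
      W ≤ U ⊔ Submodule.span K (G : Set V) := by
  classical
  obtain ⟨C, hC⟩ := Submodule.exists_isCompl (U.comap W.subtype)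
  have h1 : finrank K (U.comap W.subtype) + finrank K C = finrank K W :=
    Submodule.finrank_add_eq_of_isCompl hC
  have h2 : finrank K (U.comap W.subtype) = finrank K U := by
    have e := Submodule.comapSubtypeEquivOfLe hUW
    exact e.finrank_eq
  set b := Module.finBasis K C with hb
  refine ⟨Finset.univ.image fun i => ((b i : W) : V), ?_, ?_, ?_⟩
  · intro g hg
    rw [Finset.mem_image] at hg
    obtain ⟨i, -, rfl⟩ := hg
    exact (b i : W).2
  · refine Finset.card_image_le.trans ?_
    rw [Finset.card_univ, Fintype.card_fin]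
    omega
  · intro w hw
    have h3 : (⟨w, hw⟩ : W) ∈ U.comap W.subtype ⊔ C := by
      rw [hC.sup_eq_top]; trivial
    rw [Submodule.mem_sup] at h3
    obtain ⟨y, hy, z, hz, hyz⟩ := h3
    have h4 : w = (y : V) + (z : V) := by
      have := congrArg (Subtype.val) hyz
      exact this.symm
    rw [h4]
    refine Submodule.add_mem_sup hy ?_
    have h6 : (z : V) = ∑ i, b.repr ⟨z, hz⟩ i • ((b i : W) : V) := by
      have e := congrArg (W.subtype ∘ₗ C.subtype) (b.sum_repr ⟨z, hz⟩)
      rw [map_sum] at e
      refine e.symm.trans (Finset.sum_congr rfl fun i _ => ?_)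
      rw [map_smul]
      rfl
    rw [h6]
    refine Submodule.sum_mem _ fun i _ => Submodule.smul_mem _ _ (Submodule.subset_span ?_)
    rw [Finset.mem_coe, Finset.mem_image]
    exact ⟨i, Finset.mem_univ _, rfl⟩

/-- number of generators of an arbitrary ideal containing a homogeneous ideal `F` which contains all
forms of degree at least `D` -/
theorem exists_generators {F I : Ideal (MvPolynomial (Fin n) K)} (hF : HomIdeal F) {D : ℕ}
    (hD : ∀ d, D ≤ d → ∀ g : MvPolynomial (Fin n) K, g.IsHomogeneous d → g ∈ F) (hFI : F ≤ I) :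
    ∃ G : Finset (MvPolynomial (Fin n) K),
      G.card ≤ ∑ d ∈ Finset.range D, (hilb (mx K n * ini I ⊔ F) d - hilb (ini I) d) ∧
      F ⊔ Ideal.span (G : Set (MvPolynomial (Fin n) K)) = I := by
  classical
  have hFi : F ≤ ini I := hom_le_ini hF hFI
  have hsub : mx K n * ini I ⊔ F ≤ ini I := sup_le Ideal.mul_le_right hFi
  have hmF : HomIdeal (mx K n * ini I ⊔ F) := homIdeal_sup (homIdeal_mul homIdeal_mx (homIdeal_ini I)) hF
  choose G0 hG1 hG2 hG3 using fun d => exists_gens (K := K) (piece (mx K n * ini I ⊔ F) d)
    (piece (ini I) d) (piece_mono hsub d)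
  -- lifts
  have hlift : ∀ d, ∀ g : MvPolynomial (Fin n) K, ∃ u, g ∈ G0 d →
      u ∈ I ∧ Ord d u ∧ homogeneousComponent d u = g := by
    intro d g
    by_cases hg : g ∈ G0 d
    · obtain ⟨u, hu, h1, h2⟩ := (hom_mem_ini (hG1 d g hg).2).1 (hG1 d g hg).1
      exact ⟨u, fun _ => ⟨hu, h1, h2⟩⟩
    · exact ⟨0, fun h => absurd h hg⟩
  choose L hL using hlift
  set G : Finset (MvPolynomial (Fin n) K) := (Finset.range D).biUnion fun d => (G0 d).image (L d) with hG
  refine ⟨G, ?_, ?_⟩
  · refine Finset.card_biUnion_le.trans (Finset.sum_le_sum fun d _ => ?_)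
    refine Finset.card_image_le.trans ((hG2 d).trans ?_)
    have q1 := finrank_piece_add_hilb (mx K n * ini I ⊔ F) d
    have q2 := finrank_piece_add_hilb (ini I) d
    omega
  · set B := F ⊔ Ideal.span (G : Set (MvPolynomial (Fin n) K)) with hB
    have hBI : B ≤ I := by
      refine sup_le hFI ?_
      rw [Ideal.span_le]
      intro u hu
      rw [Finset.mem_coe, hG, Finset.mem_biUnion] at hu
      obtain ⟨d, -, hu⟩ := hu
      rw [Finset.mem_image] at hu
      obtain ⟨g, hg, rfl⟩ := hu
      exact (hL d g hg).1
    have hFB : F ≤ B := le_sup_left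
    have hFiB : F ≤ ini B := hom_le_ini hF hFB
    have hGB : ∀ d < D, ∀ g ∈ G0 d, g ∈ ini B := by
      intro d hd g hg
      rw [hom_mem_ini (hG1 d g hg).2]
      obtain ⟨h1, h2, h3⟩ := hL d g hg
      refine ⟨L d g, ?_, h2, h3⟩
      refine Ideal.mem_sup_right (Ideal.subset_span ?_)
      rw [Finset.mem_coe, hG, Finset.mem_biUnion]
      exact ⟨d, Finset.mem_range.2 hd, Finset.mem_image.2 ⟨g, hg, rfl⟩⟩
    have key : ∀ d, ∀ u ∈ ini I, homogeneousComponent d u ∈ ini B := by
      intro d
      induction d with
      | zero =>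
        intro u hu
        by_cases hd : 0 < D
        · have h1 : homogeneousComponent 0 u ∈ piece (ini I) 0 :=
            ⟨homIdeal_ini I u hu 0, homogeneousComponent_isHomogeneous 0 u⟩
          have h2 := hG3 0 h1
          rw [Submodule.mem_sup] at h2
          obtain ⟨y, hy, z, hz, hyz⟩ := h2
          rw [← hyz]
          refine (ini B).add_mem ?_ ?_
          · obtain ⟨y1, hy1, y2, hy2, rfl⟩ := Submodule.mem_sup.1 hy.1
            have e1 : homogeneousComponent 0 (y1 + y2) = y1 + y2 := comp_self hy.2
            rw [← e1, map_add, comp_zero_mx (Ideal.mul_le_left hy1), zero_add]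
            exact hFiB (hF _ hy2 _)
          · have h3 : Submodule.span K (G0 0 : Set (MvPolynomial (Fin n) K)) ≤ (ini B).restrictScalars K := by
              rw [Submodule.span_le]
              intro g hg
              exact hGB 0 hd g hg
            exact h3 hz
        · exact hFiB (hD 0 (by omega) _ (homogeneousComponent_isHomogeneous 0 u))
      | succ d ih =>
        intro u hu
        by_cases hd : d + 1 < D
        · have h1 : homogeneousComponent (d + 1) u ∈ piece (ini I) (d + 1) :=
            ⟨homIdeal_ini I u hu _, homogeneousComponent_isHomogeneous _ u⟩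
          have h2 := hG3 (d + 1) h1
          rw [Submodule.mem_sup] at h2
          obtain ⟨y, hy, z, hz, hyz⟩ := h2
          rw [← hyz]
          refine (ini B).add_mem ?_ ?_
          · obtain ⟨y1, hy1, y2, hy2, rfl⟩ := Submodule.mem_sup.1 hy.1
            have e1 : homogeneousComponent (d + 1) (y1 + y2) = y1 + y2 := comp_self hy.2
            rw [← e1, map_add]
            exact (ini B).add_mem (comp_mx_mul ih hy1) (hFiB (hF _ hy2 _))
          · have h3 : Submodule.span K (G0 (d + 1) : Set (MvPolynomial (Fin n) K)) ≤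
                (ini B).restrictScalars K := by
              rw [Submodule.span_le]
              intro g hg
              exact hGB _ hd g hg
            exact h3 hz
        · exact hFiB (hD _ (by omega) _ (homogeneousComponent_isHomogeneous _ u))
    refine eq_of_ini hD hFB hBI fun d p hp => ?_
    obtain ⟨u, hu, h1, h2⟩ := hp
    have hp' : p.IsHomogeneous d := by
      rw [← h2]; exact homogeneousComponent_isHomogeneous d u
    have h3 : p ∈ ini I := (hom_mem_ini hp').2 ⟨u, hu, h1, h2⟩
    have h4 := key d p h3
    rw [comp_self hp'] at h4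
    exact (hom_mem_ini hp').1 h4

end Vale.Agent.P200.H391
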