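import Vale.Agent.P200.H710.Count
import Vale.Agent.P200.H391.Antichain

set_option autoImplicit false
set_option linter.all false

/-! Generators and socle relative to a regular sequence. -/

namespace Vale.Agent.P200.H391

open MvPolynomial Module Vale.Agent.P200F Vale.Agent.P200F.G Vale.Agent.P200F.B
  Vale.Agent.P200F.L Vale.Agent.P200.H710

universe u

variable {K : Type u} [Field K] {n c : ℕ}

/-- the ideal of the variables -/
noncomputable abbrev mx (K : Type u) [Field K] (n : ℕ) : Ideal (MvPolynomial (Fin n) K) := Ideal.span (Set.range X)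

attribute [local instance] MvPolynomial.gradedAlgebra

theorem homIdeal_mx : HomIdeal (mx K n) := homIdeal_span (by
  rintro _ ⟨i, rfl⟩
  exact ⟨1, isHomogeneous_X K i⟩)

theorem homIdeal_mul {I J : Ideal (MvPolynomial (Fin n) K)} (hI : HomIdeal I) (hJ : HomIdeal J) :
    HomIdeal (I * J) :=
  homIdeal_iff.2 ((homIdeal_iff.1 hI).mul (homIdeal_iff.1 hJ))

theorem mem_mx {g : MvPolynomial (Fin n) K} {k : ℕ} (hg : g.IsHomogeneous (k + 1)) : g ∈ mx K n := by
  rw [mx, ← Set.image_univ, mem_ideal_span_X_image]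
  intro m hm
  have h1 := hg.degree_eq_sum_deg_support hm
  by_contra hcon
  push Not at hcon
  have : ∑ i ∈ m.support, m i = 0 := Finset.sum_eq_zero fun i _ => hcon i (Set.mem_univ i)
  omega

theorem comp_zero_mx {g : MvPolynomial (Fin n) K} (hg : g ∈ mx K n) : homogeneousComponent 0 g = 0 := by
  rw [homogeneousComponent_zero]
  rw [mx, ← Set.image_univ, mem_ideal_span_X_image] at hg
  by_contra hne
  have h0 : coeff 0 g ≠ 0 := fun h => hne (by rw [h, C_0])
  obtain ⟨i, -, hi⟩ := hg 0 (mem_support_iff.2 h0)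
  exact hi rfl

/-- components of elements of `𝔪 A` -/
theorem comp_mx_mul {A B : Ideal (MvPolynomial (Fin n) K)} {d : ℕ}
    (hAB : ∀ u ∈ A, homogeneousComponent d u ∈ B) {g : MvPolynomial (Fin n) K}
    (hg : g ∈ mx K n * A) : homogeneousComponent (d + 1) g ∈ B := by
  refine Submodule.mul_induction_on hg ?_ ?_
  · intro r hr u hu
    revert u
    refine Submodule.span_induction (p := fun r _ => ∀ u ∈ A, homogeneousComponent (d + 1) (r * u) ∈ B)
      ?_ ?_ ?_ ?_ hr
    · rintro _ ⟨i, rfl⟩ u hu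
      rw [comp_mul_add (isHomogeneous_X K i)]
      exact B.mul_mem_left _ (hAB u hu)
    · intro u _
      rw [zero_mul, map_zero]
      exact B.zero_mem
    · intro x y _ _ hx hy u hu
      rw [add_mul, map_add]
      exact B.add_mem (hx u hu) (hy u hu)
    · intro s x _ hx u hu
      rw [smul_eq_mul, mul_comm s x, mul_assoc]
      exact hx _ (A.mul_mem_left _ hu)
  · intro x y hx hy
    rw [map_add]
    exact B.add_mem hx hy

/-- components of elements of the ideal generated by `A_d` -/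
theorem comp_span_piece {A : Ideal (MvPolynomial (Fin n) K)} {d : ℕ} {g : MvPolynomial (Fin n) K}
    (hg : g ∈ Ideal.span (piece A d : Set (MvPolynomial (Fin n) K))) :
    homogeneousComponent (d + 1) g ∈ mx K n * A := by
  have key : ∀ r, homogeneousComponent (d + 1) (r * g) ∈ mx K n * A := by
    refine Submodule.span_induction
      (p := fun g _ => ∀ r, homogeneousComponent (d + 1) (r * g) ∈ mx K n * A) ?_ ?_ ?_ ?_ hg
    · intro x hx r
      have hx' : x ∈ A ∧ x.IsHomogeneous d := hx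
      rw [mul_comm r x, add_comm d 1, comp_mul_add hx'.2, mul_comm x]
      exact Ideal.mul_mem_mul (mem_mx (homogeneousComponent_isHomogeneous 1 r)) hx'.1
    · intro r
      rw [mul_zero, map_zero]
      exact Ideal.zero_mem _
    · intro x y _ _ hx hy r
      rw [mul_add, map_add]
      exact Ideal.add_mem _ (hx r) (hy r)
    · intro s x _ hx r
      rw [smul_eq_mul, ← mul_assoc]
      exact hx _
  have := key 1
  rwa [one_mul] at this

theorem homIdeal_span_piece (A : Ideal (MvPolynomial (Fin n) K)) (d : ℕ) :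
    HomIdeal (Ideal.span (piece A d : Set (MvPolynomial (Fin n) K))) :=
  homIdeal_span fun g hg => ⟨d, hg.2⟩

theorem hilb_le_of {A B : Ideal (MvPolynomial (Fin n) K)} {d : ℕ}
    (h : ∀ g : MvPolynomial (Fin n) K, g.IsHomogeneous d → g ∈ A → g ∈ B) : hilb B d ≤ hilb A d := by
  have h1 : piece A d ≤ piece B d := fun g hg => ⟨h g hg.2 hg.1, hg.2⟩
  have h2 := Submodule.finrank_mono h1
  unfold hilb
  omega

/-- `𝔪 I + (f) + (I_d)` -/
theorem sharp_spec (I F : Ideal (MvPolynomial (Fin n) K)) (hI : HomIdeal I) (hF : HomIdeal F)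
    (hFI : F ≤ I) (d : ℕ) :
    HomIdeal (mx K n * I ⊔ F ⊔ Ideal.span (piece I d : Set (MvPolynomial (Fin n) K))) ∧
    F ≤ mx K n * I ⊔ F ⊔ Ideal.span (piece I d : Set (MvPolynomial (Fin n) K)) ∧
    hilb (mx K n * I ⊔ F ⊔ Ideal.span (piece I d : Set (MvPolynomial (Fin n) K))) d = hilb I d ∧
    hilb (mx K n * I ⊔ F ⊔ Ideal.span (piece I d : Set (MvPolynomial (Fin n) K))) (d + 1) =
      hilb (mx K n * I ⊔ F) (d + 1) := by
  have hmF : HomIdeal (mx K n * I ⊔ F) := homIdeal_sup (homIdeal_mul homIdeal_mx hI) hF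
  refine ⟨homIdeal_sup hmF (homIdeal_span_piece I d), le_sup_right.trans le_sup_left, ?_, ?_⟩
  · apply hilb_congr
    intro g hg
    constructor
    · intro h
      have hle : mx K n * I ⊔ F ⊔ Ideal.span (piece I d : Set (MvPolynomial (Fin n) K)) ≤ I := by
        refine sup_le (sup_le Ideal.mul_le_right hFI) ?_
        rw [Ideal.span_le]
        intro x hx
        exact hx.1
      exact hle h
    · intro h
      exact Ideal.mem_sup_right (Ideal.subset_span ⟨h, hg⟩)
  · apply hilb_congr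
    intro g hg
    constructor
    · intro h
      rw [Submodule.mem_sup] at h
      obtain ⟨y, hy, z, hz, rfl⟩ := h
      have h1 : homogeneousComponent (d + 1) (y + z) = y + z := comp_self hg
      rw [← h1, map_add]
      exact Ideal.add_mem _ (hmF y hy _) (Ideal.mem_sup_left (comp_span_piece hz))
    · intro h
      exact Ideal.mem_sup_left h

/-- `(I : 𝔪)` -/
theorem mem_colon_X {I : Ideal (MvPolynomial (Fin n) K)} {g : MvPolynomial (Fin n) K} :
    g ∈ Submodule.colon I (Set.range X) ↔ ∀ i, X i * g ∈ I := by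
  rw [Submodule.mem_colon]
  constructor
  · intro h i
    rw [mul_comm]
    exact h _ ⟨i, rfl⟩
  · rintro h _ ⟨i, rfl⟩
    rw [smul_eq_mul, mul_comm]
    exact h i

theorem homIdeal_colon {I : Ideal (MvPolynomial (Fin n) K)} (hI : HomIdeal I) :
    HomIdeal (Submodule.colon I (Set.range X)) := by
  intro g hg d
  rw [mem_colon_X] at hg ⊢
  intro i
  rw [← comp_mul_add (isHomogeneous_X K i)]
  exact hI _ (hg i) _

theorem le_colon (I : Ideal (MvPolynomial (Fin n) K)) : I ≤ Submodule.colon I (Set.range X) := by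
  intro g hg
  rw [mem_colon_X]
  exact fun i => I.mul_mem_left _ hg

theorem mx_mul_colon (I : Ideal (MvPolynomial (Fin n) K)) :
    mx K n * Submodule.colon I (Set.range X) ≤ I := by
  rw [Ideal.mul_le]
  intro r hr s hs
  rw [mem_colon_X] at hs
  refine Submodule.span_induction (p := fun r _ => r * s ∈ I) ?_ ?_ ?_ ?_ hr
  · rintro _ ⟨i, rfl⟩
    exact hs i
  · rw [zero_mul]; exact I.zero_mem
  · intro x y _ _ hx hy
    rw [add_mul]; exact I.add_mem hx hy
  · intro t x _ hx
    rw [smul_eq_mul, mul_assoc]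
    exact I.mul_mem_left _ hx

/-- `I + ((I : 𝔪)_d)` -/
theorem flat_spec (I : Ideal (MvPolynomial (Fin n) K)) (hI : HomIdeal I) (d : ℕ) :
    HomIdeal (I ⊔ Ideal.span (piece (Submodule.colon I (Set.range X)) d :
      Set (MvPolynomial (Fin n) K))) ∧
    hilb (I ⊔ Ideal.span (piece (Submodule.colon I (Set.range X)) d :
      Set (MvPolynomial (Fin n) K))) d = hilb (Submodule.colon I (Set.range X)) d ∧
    hilb (I ⊔ Ideal.span (piece (Submodule.colon I (Set.range X)) d :
      Set (MvPolynomial (Fin n) K))) (d + 1) = hilb I (d + 1) := by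
  refine ⟨homIdeal_sup hI (homIdeal_span_piece _ d), ?_, ?_⟩
  · apply hilb_congr
    intro g hg
    constructor
    · intro h
      have hle : I ⊔ Ideal.span (piece (Submodule.colon I (Set.range X)) d :
          Set (MvPolynomial (Fin n) K)) ≤ Submodule.colon I (Set.range X) := by
        refine sup_le (le_colon I) ?_
        rw [Ideal.span_le]
        intro x hx
        exact hx.1
      exact hle h
    · intro h
      exact Ideal.mem_sup_right (Ideal.subset_span ⟨h, hg⟩)
  · apply hilb_congr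
    intro g hg
    constructor
    · intro h
      rw [Submodule.mem_sup] at h
      obtain ⟨y, hy, z, hz, rfl⟩ := h
      have h1 : homogeneousComponent (d + 1) (y + z) = y + z := comp_self hg
      rw [← h1, map_add]
      exact I.add_mem (hI y hy _) (mx_mul_colon I (comp_span_piece hz))
    · intro h
      exact Ideal.mem_sup_left h

/-- two lexicographic sets are nested -/
theorem nested (h : c ≤ n) (a : Fin c → ℕ) {N N' : Set (Fin n →₀ ℕ)} (hN : IsNJ h a N)
    (hN' : IsNJ h a N') (d : ℕ)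
    (hc : {m : Fin n →₀ ℕ | m ∈ N ∧ ∑ i, m i = d}.ncard ≤ {m : Fin n →₀ ℕ | m ∈ N' ∧ ∑ i, m i = d}.ncard)
    {m : Fin n →₀ ℕ} (hm : m ∈ N) (hd : ∑ i, m i = d) : m ∈ N' := by
  by_contra hm'
  have hsub : {m : Fin n →₀ ℕ | m ∈ N' ∧ ∑ i, m i = d} ⊆ {m : Fin n →₀ ℕ | m ∈ N ∧ ∑ i, m i = d} := by
    rintro m1 ⟨h1, h2⟩
    refine ⟨hN.lex m hm m1 (hN'.out m1 h1) (by rw [h2, hd]) ?_, h2⟩
    intro hgt
    apply hm'
    refine hN'.lex m1 h1 m (hN.out m hm) (by rw [h2, hd]) ?_
    intro hgt'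
    have := lexGT_tr hgt hgt'
    obtain ⟨i, hi, -⟩ := this
    exact lt_irrefl _ hi
  have hss : {m : Fin n →₀ ℕ | m ∈ N' ∧ ∑ i, m i = d} ⊂ {m : Fin n →₀ ℕ | m ∈ N ∧ ∑ i, m i = d} :=
    ⟨hsub, fun hcon => hm' (hcon ⟨hm, hd⟩).1⟩
  exact absurd (Set.ncard_lt_ncard hss (fin_deg N d)) (not_lt.2 hc)

theorem sum_sub_single {m : Fin n →₀ ℕ} {i : Fin n} (hi : m i ≠ 0) {d : ℕ} (hd : ∑ j, m j = d + 1) :
    ∑ j, (m - Finsupp.single i 1 : Fin n →₀ ℕ) j = d := by
  have h1 : Finsupp.single i 1 ≤ m := by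
    rw [Finsupp.single_le_iff]; omega
  have h2 : ∑ j, (m - Finsupp.single i 1 + Finsupp.single i 1 : Fin n →₀ ℕ) j = d + 1 := by
    rw [tsub_add_cancel_of_le h1]; exact hd
  simp only [Finsupp.add_apply, Finset.sum_add_distrib] at h2
  have h3 : ∑ j, (Finsupp.single i 1 : Fin n →₀ ℕ) j = 1 := by
    rw [Finset.sum_eq_single i]
    · simp
    · intro b _ hb
      rw [Finsupp.single_apply, if_neg hb.symm]
    · simp
  omega

theorem sum_add_single {m : Fin n →₀ ℕ} {i : Fin n} {d : ℕ} (hd : ∑ j, m j = d) :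
    ∑ j, (m + Finsupp.single i 1 : Fin n →₀ ℕ) j = d + 1 := by
  simp only [Finsupp.add_apply, Finset.sum_add_distrib]
  have h3 : ∑ j, (Finsupp.single i 1 : Fin n →₀ ℕ) j = 1 := by
    rw [Finset.sum_eq_single i]
    · simp
    · intro b _ hb
      rw [Finsupp.single_apply, if_neg hb.symm]
    · simp
  omega

/-- minimal elements outside `N` -/
def gens (h : c ≤ n) (a : Fin c → ℕ) (N : Set (Fin n →₀ ℕ)) : Set (Fin n →₀ ℕ) :=
  {m | (∀ i, m (Fin.castLE h i) < a i) ∧ m ∉ N ∧ ∀ i, m i ≠ 0 → m - Finsupp.single i 1 ∈ N}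

/-- maximal elements of `N` -/
def socl (N : Set (Fin n →₀ ℕ)) : Set (Fin n →₀ ℕ) :=
  {m | m ∈ N ∧ ∀ i, m + Finsupp.single i 1 ∉ N}

theorem gens_anti (h : c ≤ n) (a : Fin c → ℕ) {N : Set (Fin n →₀ ℕ)} (hN : IsNJ h a N)
    {p q : Fin n →₀ ℕ} (hp : p ∈ gens h a N) (hq : q ∈ gens h a N) (hpq : p ≤ q) : p = q := by
  by_contra hne
  obtain ⟨i, hi⟩ : ∃ i, p i < q i := by
    by_contra hcon
    push Not at hcon
    exact hne (le_antisymm hpq hcon)
  apply hp.2.1
  refine hN.down _ (hq.2.2 i (by omega)) p ?_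
  intro j
  have := hpq j
  rw [Finsupp.tsub_apply, Finsupp.single_apply]
  split_ifs with hij
  · subst hij; omega
  · omega

theorem socl_anti (h : c ≤ n) (a : Fin c → ℕ) {N : Set (Fin n →₀ ℕ)} (hN : IsNJ h a N)
    {p q : Fin n →₀ ℕ} (hp : p ∈ socl N) (hq : q ∈ socl N) (hpq : p ≤ q) : p = q := by
  by_contra hne
  obtain ⟨i, hi⟩ : ∃ i, p i < q i := by
    by_contra hcon
    push Not at hcon
    exact hne (le_antisymm hpq hcon)
  apply hp.2 i
  refine hN.down _ hq.1 _ ?_
  intro j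
  have := hpq j
  rw [Finsupp.add_apply, Finsupp.single_apply]
  split_ifs with hij
  · subst hij; omega
  · omega

theorem homIdeal_f (a : Fin c → ℕ) (f : Fin c → MvPolynomial (Fin n) K)
    (hf : ∀ i, (f i).IsHomogeneous (a i)) : HomIdeal (Ideal.span (Set.range f)) := homIdeal_span (by
  rintro _ ⟨i, rfl⟩
  exact ⟨_, hf i⟩)

section main

variable (K) (h : c ≤ n) (a : Fin c → ℕ)
    (ha : Monotone a) (h2 : ∀ i, 2 ≤ a i) (f : Fin c → MvPolynomial (Fin n) K)
    (hf : ∀ i, (f i).IsHomogeneous (a i)) (hreg : IsRegularSeq f)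

include ha h2 hf hreg

theorem exists_NJ' (I : Ideal (MvPolynomial (Fin n) K)) (hI : HomIdeal I) (hfI : ∀ i, f i ∈ I) :
    ∃ N : Set (Fin n →₀ ℕ), IsNJ h a N ∧
      ∀ d, {m : Fin n →₀ ℕ | m ∈ N ∧ ∑ i, m i = d}.ncard = hilb I d := by
  obtain ⟨J, hJ⟩ := V.egh K h a ha h2 f hf hreg I hI hfI
  obtain ⟨h1, h3, -⟩ := exists_NJ h a ha h2 f hf hreg I hI hfI J hJ
  exact ⟨_, h1, h3⟩

theorem gen_count (I : Ideal (MvPolynomial (Fin n) K)) (hI : HomIdeal I) (hfI : ∀ i, f i ∈ I)
    {N : Set (Fin n →₀ ℕ)} (hN : IsNJ h a N)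
    (hc : ∀ d, {m : Fin n →₀ ℕ | m ∈ N ∧ ∑ i, m i = d}.ncard = hilb I d) (d : ℕ) :
    hilb (mx K n * I ⊔ Ideal.span (Set.range f)) d ≤
      hilb I d + {m | m ∈ gens h a N ∧ ∑ i, m i = d}.ncard := by
  have hF := homIdeal_f a f hf
  have hFI : Ideal.span (Set.range f) ≤ I := by
    rw [Ideal.span_le]; rintro _ ⟨i, rfl⟩; exact hfI i
  have hpos : ∀ i, 0 < a i := fun i => by have := h2 i; omega
  cases d with
  | zero =>
    have h1 : hilb (mx K n * I ⊔ Ideal.span (Set.range f)) 0 ≤ 1 := by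
      unfold hilb
      have : finrank K (homogeneousSubmodule (Fin n) K 0) ≤ 1 := by
        rw [finrank_homogeneousSubmodule]
        simp
      omega
    by_cases h0 : (0 : Fin n →₀ ℕ) ∈ N
    · have : 1 ≤ hilb I 0 := by
        rw [← hc 0]
        exact (Set.ncard_pos (fin_deg N 0)).2 ⟨0, h0, by simp⟩
      omega
    · have : 1 ≤ {m | m ∈ gens h a N ∧ ∑ i, m i = 0}.ncard := by
        refine (Set.ncard_pos (fin_deg _ 0)).2 ⟨0, ⟨fun i => ?_, h0, fun i hi => ?_⟩, by simp⟩
        · exact hpos i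
        · exact absurd rfl hi
      omega
  | succ d =>
    obtain ⟨s1, s2, s3, s4⟩ := sharp_spec I _ hI hF hFI d
    obtain ⟨N', hN', hc'⟩ := exists_NJ' K h a ha h2 f hf hreg _ s1 fun i =>
      s2 (Ideal.subset_span ⟨i, rfl⟩)
    rw [← s4, ← hc' (d + 1), ← hc (d + 1)]
    refine (Set.ncard_le_ncard ?_ ((fin_deg N (d + 1)).union (fin_deg _ (d + 1)))).trans
      (Set.ncard_union_le _ _)
    rintro m ⟨hm, hd⟩
    by_cases hmN : m ∈ N
    · exact Or.inl ⟨hmN, hd⟩
    · refine Or.inr ⟨⟨hN'.out m hm, hmN, fun i hi => ?_⟩, hd⟩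
      have h3 : m - Finsupp.single i 1 ∈ N' := hN'.down m hm _ tsub_le_self
      refine nested h a hN' hN d ?_ h3 (sum_sub_single hi hd)
      rw [hc', hc, s3]

theorem soc_count (I : Ideal (MvPolynomial (Fin n) K)) (hI : HomIdeal I) (hfI : ∀ i, f i ∈ I)
    {N : Set (Fin n →₀ ℕ)} (hN : IsNJ h a N)
    (hc : ∀ d, {m : Fin n →₀ ℕ | m ∈ N ∧ ∑ i, m i = d}.ncard = hilb I d) (d : ℕ) :
    hilb I d ≤ hilb (Submodule.colon I (Set.range X)) d + {m | m ∈ socl N ∧ ∑ i, m i = d}.ncard := by
  obtain ⟨s1, s3, s4⟩ := flat_spec I hI d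
  obtain ⟨N', hN', hc'⟩ := exists_NJ' K h a ha h2 f hf hreg _ s1 fun i =>
    Ideal.mem_sup_left (hfI i)
  rw [← s3, ← hc' d, ← hc d]
  refine (Set.ncard_le_ncard ?_ ((fin_deg N' d).union (fin_deg _ d))).trans
    (Set.ncard_union_le _ _)
  rintro m ⟨hm, hd⟩
  by_cases hmN : m ∈ N'
  · exact Or.inl ⟨hmN, hd⟩
  · refine Or.inr ⟨⟨hm, fun i hi => hmN ?_⟩, hd⟩
    have h3 : m + Finsupp.single i 1 ∈ N' := by
      refine nested h a hN hN' (d + 1) ?_ hi (sum_add_single hd)
      rw [hc', hc, s4]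
    exact hN'.down _ h3 _ le_self_add

/-- the relative first Betti numbers of `J` are the greatest -/
theorem rel_gen (I : Ideal (MvPolynomial (Fin n) K)) (hI : HomIdeal I) (hfI : ∀ i, f i ∈ I)
    (J : Ideal (MvPolynomial (Fin n) K)) (hJ : J.restrictScalars K = lexPlusPowers h a I) (d : ℕ) :
    hilb (mx K n * I ⊔ Ideal.span (Set.range f)) d ≤ hilb (mx K n * J ⊔ powerIdeal K h a) d := by
  have hF := homIdeal_f a f hf
  have hFI : Ideal.span (Set.range f) ≤ I := by
    rw [Ideal.span_le]; rintro _ ⟨i, rfl⟩; exact hfI i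
  have hpos : ∀ i, 1 ≤ a i := fun i => le_trans one_le_two (h2 i)
  have hPhom : HomIdeal (powerIdeal K h a) := homIdeal_span (by
    rintro _ ⟨i, rfl⟩
    exact ⟨a i, isHomogeneous_X_pow _ _⟩)
  cases d with
  | zero =>
    apply hilb_le_of
    intro g hg hgm
    have hle : mx K n * J ⊔ powerIdeal K h a ≤ mx K n := by
      refine sup_le Ideal.mul_le_left ?_
      rw [powerIdeal, Ideal.span_le]
      rintro _ ⟨i, rfl⟩
      exact Ideal.pow_mem_of_mem _ (Ideal.subset_span (Set.mem_range_self _)) _ (hpos i)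
    have h1 := comp_zero_mx (hle hgm)
    rw [comp_self hg] at h1
    rw [h1]
    exact Ideal.zero_mem _
  | succ d =>
    obtain ⟨s1, s2, s3, s4⟩ := sharp_spec I _ hI hF hFI d
    have hfs : ∀ i, f i ∈ mx K n * I ⊔ Ideal.span (Set.range f) ⊔
        Ideal.span (piece I d : Set (MvPolynomial (Fin n) K)) := fun i =>
      s2 (Ideal.subset_span ⟨i, rfl⟩)
    obtain ⟨J', hJ'⟩ := V.egh K h a ha h2 f hf hreg _ s1 hfs
    obtain ⟨j1, j2, j3⟩ := lexPlusPowers_spec h a hpos f hf hreg I hI hfI J hJ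
    obtain ⟨k1, k2, k3⟩ := lexPlusPowers_spec h a hpos f hf hreg _ s1 hfs J' hJ'
    set Is := mx K n * I ⊔ Ideal.span (Set.range f) ⊔
        Ideal.span (piece I d : Set (MvPolynomial (Fin n) K)) with hIs
    have e1 : finrank K (degPart Is d) = finrank K (degPart I d) := by
      have q1 := finrank_piece_add_hilb Is d
      have q2 := finrank_piece_add_hilb I d
      have q3 : finrank K (degPart Is d) = finrank K (piece Is d) := rfl
      have q4 : finrank K (degPart I d) = finrank K (piece I d) := rfl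
      omega
    have e2 : piece J d = piece J' d := by
      rw [j2, k2, lexPart, lexPart, qdim, qdim, e1]
    have hPJ' : powerIdeal K h a ≤ J' := by
      rw [powerIdeal, Ideal.span_le]
      rintro _ ⟨i, rfl⟩
      have : (X (Fin.castLE h i) ^ a i : MvPolynomial (Fin n) K) ∈ piece J' (a i) := by
        rw [k2, lexPart]
        exact Submodule.mem_sup_left ⟨Ideal.subset_span ⟨i, rfl⟩, isHomogeneous_X_pow _ _⟩
      exact this.1
    have e3 : hilb J' (d + 1) ≤ hilb (mx K n * J ⊔ powerIdeal K h a) (d + 1) := by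
      apply hilb_le_of
      intro g hg hgm
      rw [Submodule.mem_sup] at hgm
      obtain ⟨y, hy, z, hz, rfl⟩ := hgm
      have h1 : homogeneousComponent (d + 1) (y + z) = y + z := comp_self hg
      rw [← h1, map_add]
      refine J'.add_mem (comp_mx_mul (fun u hu => ?_) hy) (hPJ' (hPhom z hz _))
      have : homogeneousComponent d u ∈ piece J d := ⟨j1 u hu d, homogeneousComponent_isHomogeneous d u⟩
      rw [e2] at this
      exact this.1
    have e4 : hilb J' (d + 1) = hilb Is (d + 1) := by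
      have q1 := finrank_piece_add_hilb J' (d + 1)
      have q2 := finrank_piece_add_hilb Is (d + 1)
      have q3 := k3 (d + 1)
      omega
    rw [← s4, ← e4]
    exact e3

/-- the socle of `S / J` is the greatest -/
theorem rel_soc (I : Ideal (MvPolynomial (Fin n) K)) (hI : HomIdeal I) (hfI : ∀ i, f i ∈ I)
    (J : Ideal (MvPolynomial (Fin n) K)) (hJ : J.restrictScalars K = lexPlusPowers h a I) (d : ℕ) :
    hilb (Submodule.colon J (Set.range X)) d ≤ hilb (Submodule.colon I (Set.range X)) d := by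
  have hpos : ∀ i, 1 ≤ a i := fun i => le_trans one_le_two (h2 i)
  obtain ⟨s1, s3, s4⟩ := flat_spec I hI d
  have hfs : ∀ i, f i ∈ I ⊔ Ideal.span (piece (Submodule.colon I (Set.range X)) d :
      Set (MvPolynomial (Fin n) K)) := fun i => Ideal.mem_sup_left (hfI i)
  obtain ⟨J', hJ'⟩ := V.egh K h a ha h2 f hf hreg _ s1 hfs
  obtain ⟨j1, j2, j3⟩ := lexPlusPowers_spec h a hpos f hf hreg I hI hfI J hJ
  obtain ⟨k1, k2, k3⟩ := lexPlusPowers_spec h a hpos f hf hreg _ s1 hfs J' hJ'
  set Is := I ⊔ Ideal.span (piece (Submodule.colon I (Set.range X)) d :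
      Set (MvPolynomial (Fin n) K)) with hIs
  have e1 : finrank K (degPart Is (d + 1)) = finrank K (degPart I (d + 1)) := by
    have q1 := finrank_piece_add_hilb Is (d + 1)
    have q2 := finrank_piece_add_hilb I (d + 1)
    have q3 : finrank K (degPart Is (d + 1)) = finrank K (piece Is (d + 1)) := rfl
    have q4 : finrank K (degPart I (d + 1)) = finrank K (piece I (d + 1)) := rfl
    omega
  have e2 : piece J (d + 1) = piece J' (d + 1) := by
    rw [j2, k2, lexPart, lexPart, qdim, qdim, e1]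
  have e3 : hilb (Submodule.colon J (Set.range X)) d ≤ hilb J' d := by
    apply hilb_le_of
    intro g hg hgm
    rw [mem_colon_X]
    intro i
    have : X i * g ∈ piece J' (d + 1) :=
      ⟨J'.mul_mem_left _ hgm, by rw [add_comm]; exact (isHomogeneous_X K i).mul hg⟩
    rw [← e2] at this
    exact this.1
  have e4 : hilb J' d = hilb Is d := by
    have q1 := finrank_piece_add_hilb J' d
    have q2 := finrank_piece_add_hilb Is d
    have q3 := k3 d
    omega
  rw [← s3, ← e4]
  exact e3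

end main

end Vale.Agent.P200.H391
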